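import Mathlib

/-!
# Radial sweep: projections and Gram determinants (measure-free algebra)
-/

set_option autoImplicit false
open Set

namespace Crest.Agent.Helper53.Sweep

/-- Euclidean 3-space. -/
abbrev E3 := EuclideanSpace ℝ (Fin 3)

section general

variable {F : Type*} [NormedAddCommGroup F] [InnerProductSpace ℝ F]

/-- Gram determinant of two vectors. -/
noncomputable def gram2 (x y : F) : ℝ := ‖x‖ ^ 2 * ‖y‖ ^ 2 - (inner ℝ x y) ^ 2

theorem gram2_nonneg (x y : F) : 0 ≤ gram2 x y := by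
  unfold gram2
  have h := abs_real_inner_le_norm x y
  have h2 : (inner ℝ x y) ^ 2 ≤ (‖x‖ * ‖y‖) ^ 2 := by
    rw [← sq_abs (inner ℝ x y)]
    exact pow_le_pow_left₀ (abs_nonneg _) h 2
  nlinarith [h2]

theorem gram2_smul (r : ℝ) (x y : F) : gram2 (r • x) (r • y) = r ^ 4 * gram2 x y := by
  unfold gram2
  rw [norm_smul, norm_smul, inner_smul_left, inner_smul_right, Real.norm_eq_abs]
  simp only [conj_trivial]
  have : |r| ^ 2 = r ^ 2 := sq_abs r
  calc (|r| * ‖x‖) ^ 2 * (|r| * ‖y‖) ^ 2 - (r * (r * inner ℝ x y)) ^ 2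
      = |r| ^ 2 * |r| ^ 2 * (‖x‖ ^ 2 * ‖y‖ ^ 2) - r ^ 4 * (inner ℝ x y) ^ 2 := by ring
    _ = r ^ 4 * (‖x‖ ^ 2 * ‖y‖ ^ 2 - inner ℝ x y ^ 2) := by rw [this]; ring

theorem gram2_ray (a b : F) (s₁ s₂ : ℝ) :
    gram2 (a + s₁ • b) (a + s₂ • b) = (s₂ - s₁) ^ 2 * gram2 a b := by
  unfold gram2
  have n1 : ∀ v : F, ‖v‖ ^ 2 = inner ℝ v v := fun v => (real_inner_self_eq_norm_sq v).symm
  simp only [n1, inner_add_left, inner_add_right, inner_smul_left, inner_smul_right, conj_trivial,
    real_inner_comm a b]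
  ring

/-- If the Gram determinant is positive, the two vectors are linearly independent. -/
theorem eq_zero_of_gram2_pos {x y : F} (h : 0 < gram2 x y) {c₁ c₂ : ℝ}
    (hc : c₁ • x + c₂ • y = 0) : c₁ = 0 ∧ c₂ = 0 := by
  have n1 : ∀ v : F, ‖v‖ ^ 2 = inner ℝ v v := fun v => (real_inner_self_eq_norm_sq v).symm
  have e1 : c₁ * inner ℝ x x + c₂ * inner ℝ x y = 0 := by
    have := congrArg (fun v => inner ℝ x v) hc
    simpa [inner_add_right, inner_smul_right] using this
  have e2 : c₁ * inner ℝ x y + c₂ * inner ℝ y y = 0 := by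
    have := congrArg (fun v => inner ℝ y v) hc
    simpa [inner_add_right, inner_smul_right, real_inner_comm x y] using this
  unfold gram2 at h
  rw [n1, n1] at h
  constructor
  · have : c₁ * (inner ℝ x x * inner ℝ y y - inner ℝ x y ^ 2) = 0 := by
      linear_combination (inner ℝ y y) * e1 - (inner ℝ x y) * e2
    rcases mul_eq_zero.1 this with h0 | h0
    · exact h0
    · exact absurd h0 h.ne'
  · have : c₂ * (inner ℝ x x * inner ℝ y y - inner ℝ x y ^ 2) = 0 := by
      linear_combination (inner ℝ x x) * e2 - (inner ℝ x y) * e1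
    rcases mul_eq_zero.1 this with h0 | h0
    · exact h0
    · exact absurd h0 h.ne'

/-- Linearly independent vectors have positive Gram determinant. -/
theorem gram2_pos_of_linearIndependent {x y : F} (h : LinearIndependent ℝ ![x, y]) :
    0 < gram2 x y := by
  rcases (gram2_nonneg x y).lt_or_eq with h0 | h0
  · exact h0
  · exfalso
    have n1 : ∀ v : F, ‖v‖ ^ 2 = inner ℝ v v := fun v => (real_inner_self_eq_norm_sq v).symm
    rw [LinearIndependent.pair_iff] at h
    have hz : ‖(inner ℝ y y) • x - (inner ℝ x y) • y‖ ^ 2 = 0 := by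
      have hg : inner ℝ x x * inner ℝ y y - inner ℝ x y ^ 2 = 0 := by
        unfold gram2 at h0; rw [n1, n1] at h0; exact h0.symm
      rw [n1]
      simp only [inner_sub_left, inner_sub_right, inner_smul_left, inner_smul_right, conj_trivial,
        real_inner_comm x y]
      linear_combination (inner ℝ y y) * hg
    have hz' : (inner ℝ y y) • x + (-(inner ℝ x y)) • y = 0 := by
      have := pow_eq_zero_iff (n := 2) (by norm_num) |>.1 hz
      rw [norm_eq_zero] at this
      rw [neg_smul, ← sub_eq_add_neg]; exact this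
    obtain ⟨h1, h2⟩ := h _ _ hz'
    have hy : y = 0 := inner_self_eq_zero.1 h1
    have hy' := h 0 1 (by simp [hy])
    exact one_ne_zero hy'.2

/-- Positive Gram determinant of the edge vectors gives affine independence. -/
theorem affineIndependent_of_gram2_pos {p q r : F} (h : 0 < gram2 (q - p) (r - p)) :
    AffineIndependent ℝ ![p, q, r] := by
  rw [affineIndependent_iff_of_fintype]
  intro w hw0 hw1
  rw [Finset.univ.weightedVSub_eq_linear_combination hw0] at hw1
  simp only [Fin.sum_univ_three, Matrix.cons_val_zero, Matrix.cons_val_one,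
    Matrix.cons_val_two, Matrix.head_cons, Matrix.tail_cons] at hw0 hw1
  have hc : w 1 • (q - p) + w 2 • (r - p) = 0 := by
    have e : w 1 • (q - p) + w 2 • (r - p)
        = (w 0 • p + w 1 • q + w 2 • r) - (w 0 + w 1 + w 2) • p := by module
    rw [e, hw1, hw0]; simp
  obtain ⟨h1, h2⟩ := eq_zero_of_gram2_pos h hc
  have h0 : w 0 = 0 := by linarith
  intro i
  fin_cases i
  · exact h0
  · exact h1
  · exact h2

/-- Orthogonal projection onto `n^⊥` as a linear map. -/
noncomputable def projL (n : F) : F →ₗ[ℝ] F where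
  toFun y := y - (inner ℝ y n / ‖n‖ ^ 2) • n
  map_add' x y := by
    simp only [inner_add_left, add_div, add_smul]; abel
  map_smul' c x := by
    simp only [inner_smul_left, conj_trivial, RingHom.id_apply, smul_sub, smul_smul, mul_div_assoc]

theorem projL_apply (n y : F) : projL n y = y - (inner ℝ y n / ‖n‖ ^ 2) • n := rfl

theorem inner_projL_self {n : F} (hn : n ≠ 0) (y : F) : inner ℝ (projL n y) n = 0 := by
  have hn' : ‖n‖ ^ 2 ≠ 0 := pow_ne_zero 2 (norm_ne_zero_iff.2 hn)
  rw [projL_apply, inner_sub_left, inner_smul_left, real_inner_self_eq_norm_sq]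
  simp only [conj_trivial]
  field_simp
  ring

theorem projL_self {n : F} (hn : n ≠ 0) : projL n n = 0 := by
  have hn' : ‖n‖ ^ 2 ≠ 0 := pow_ne_zero 2 (norm_ne_zero_iff.2 hn)
  rw [projL_apply, real_inner_self_eq_norm_sq, div_self hn', one_smul, sub_self]

theorem inner_projL_projL {n : F} (hn : n ≠ 0) (x y : F) :
    inner ℝ (projL n x) (projL n y) = inner ℝ x y - inner ℝ x n * inner ℝ y n / ‖n‖ ^ 2 := by
  have hn' : ‖n‖ ^ 2 ≠ 0 := pow_ne_zero 2 (norm_ne_zero_iff.2 hn)
  rw [projL_apply, projL_apply]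
  simp only [inner_sub_left, inner_sub_right, inner_smul_left, inner_smul_right, conj_trivial,
    real_inner_self_eq_norm_sq, real_inner_comm y n]
  field_simp
  ring

end general

/-- The Gram determinant of three vectors of `e^⊥` in 3-space vanishes. -/
theorem gram3_zero (x y w e : E3) (he : ‖e‖ = 1) (hx : inner ℝ x e = 0) (hy : inner ℝ y e = 0)
    (hw : inner ℝ w e = 0) :
    ‖x‖ ^ 2 * (inner ℝ y w) ^ 2 + ‖y‖ ^ 2 * (inner ℝ x w) ^ 2
        - 2 * inner ℝ x y * inner ℝ x w * inner ℝ y w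
      = ‖w‖ ^ 2 * (‖x‖ ^ 2 * ‖y‖ ^ 2 - (inner ℝ x y) ^ 2) := by
  have hi : ∀ u v : E3, inner ℝ u v = u 0 * v 0 + u 1 * v 1 + u 2 * v 2 := by
    intro u v
    simp [PiLp.inner_apply, Fin.sum_univ_three]
    ring
  have n1 : ∀ v : E3, ‖v‖ ^ 2 = inner ℝ v v := fun v => (real_inner_self_eq_norm_sq v).symm
  have he2 : inner ℝ e e = 1 := by rw [← n1, he]; norm_num
  rw [hi] at hx hy hw he2
  simp only [n1, hi]
  -- the determinant of `x, y, w` vanishes
  have hd : x 0 * (y 1 * w 2 - y 2 * w 1) - x 1 * (y 0 * w 2 - y 2 * w 0)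
      + x 2 * (y 0 * w 1 - y 1 * w 0) = 0 := by
    linear_combination
      (e 0 * (y 1 * w 2 - y 2 * w 1) - e 1 * (y 0 * w 2 - y 2 * w 0)
        + e 2 * (y 0 * w 1 - y 1 * w 0)) * hx
      + (x 0 * (e 1 * w 2 - e 2 * w 1) - x 1 * (e 0 * w 2 - e 2 * w 0)
        + x 2 * (e 0 * w 1 - e 1 * w 0)) * hy
      + (x 0 * (y 1 * e 2 - y 2 * e 1) - x 1 * (y 0 * e 2 - y 2 * e 0)
        + x 2 * (y 0 * e 1 - y 1 * e 0)) * hw
      - (x 0 * (y 1 * w 2 - y 2 * w 1) - x 1 * (y 0 * w 2 - y 2 * w 0)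
        + x 2 * (y 0 * w 1 - y 1 * w 0)) * he2
  linear_combination
    (-(x 0 * (y 1 * w 2 - y 2 * w 1) - x 1 * (y 0 * w 2 - y 2 * w 0)
      + x 2 * (y 0 * w 1 - y 1 * w 0))) * hd

theorem norm_sq_add_of_perp (e w : E3) (he : ‖e‖ = 1) (hw : inner ℝ w e = 0) :
    ‖e + w‖ ^ 2 = 1 + ‖w‖ ^ 2 := by
  rw [← real_inner_self_eq_norm_sq, inner_add_left, inner_add_right, inner_add_right,
    real_inner_self_eq_norm_sq, real_inner_self_eq_norm_sq, hw, real_inner_comm, hw, he]
  ring

theorem add_ne_zero_of_perp (e w : E3) (he : ‖e‖ = 1) (hw : inner ℝ w e = 0) : e + w ≠ 0 := by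
  intro h
  have := norm_sq_add_of_perp e w he hw
  rw [h, norm_zero] at this
  nlinarith [sq_nonneg ‖w‖]

/-- Projecting two vectors of `e^⊥` onto `(e + w)^⊥` divides their Gram determinant by
`1 + ‖w‖²`. -/
theorem gram2_projL (x y w e : E3) (he : ‖e‖ = 1) (hx : inner ℝ x e = 0) (hy : inner ℝ y e = 0)
    (hw : inner ℝ w e = 0) :
    gram2 (projL (e + w) x) (projL (e + w) y) = gram2 x y / (1 + ‖w‖ ^ 2) := by
  have hn := add_ne_zero_of_perp e w he hw
  have hD := norm_sq_add_of_perp e w he hw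
  have hpos : (0 : ℝ) < 1 + ‖w‖ ^ 2 := by positivity
  have g3 := gram3_zero x y w e he hx hy hw
  unfold gram2
  rw [← real_inner_self_eq_norm_sq (projL (e + w) x), ← real_inner_self_eq_norm_sq (projL (e + w) y),
    inner_projL_projL hn, inner_projL_projL hn, inner_projL_projL hn, hD]
  simp only [inner_add_right, hx, hy, zero_add, real_inner_self_eq_norm_sq]
  field_simp
  linear_combination (-(1 + ‖w‖ ^ 2)) * g3

end Crest.Agent.Helper53.Sweep
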