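import Crest.Agent.Helper53.Sweep.Piece
import Crest.Agent.Helper53.Sweep.Proj

/-!
# Radial sweep: inner containment (C-5) and the partition glue
-/

set_option autoImplicit false
open Set

namespace Crest.Agent.Helper53.Sweep

/-- The flat triangle `conv{p₀, p₀ + h u(s₁), p₀ + h u(s₂)}` lies in the `s = 0` slice of the
piece over `[s₁, s₂]` as soon as `h ≤ R` on the cell. -/
theorem flat_subset_piece {F : Type*} [AddCommGroup F] [Module ℝ F] (e a b p₀ : F) (L : ℝ)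
    (hL : 0 ≤ L) (R : ℝ → ℝ) (w : ℝ → F) (s₁ s₂ : ℝ) (hs : s₁ ≤ s₂) (h : ℝ) (hh : 0 ≤ h)
    (hR : ∀ τ ∈ Icc s₁ s₂, h ≤ R τ) :
    convexHull ℝ {p₀, p₀ + h • (a + s₁ • b), p₀ + h • (a + s₂ • b)} ⊆
      {x | ∃ τ ∈ Icc s₁ s₂, ∃ ρ ∈ Icc 0 (R τ), ∃ s : ℝ, |s| ≤ L ∧
        x = p₀ + ρ • (a + τ • b) + s • (e + w τ)} := by
  intro x hx
  obtain ⟨c₁, c₂, h1, h2, h3, rfl⟩ := tri_subset p₀ (a + s₁ • b) (a + s₂ • b) h hh hx
  rcases (add_nonneg h1 h2).eq_or_lt with h0 | hpos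
  · have hc1 : c₁ = 0 := by linarith
    have hc2 : c₂ = 0 := by linarith
    refine ⟨s₁, ⟨le_rfl, hs⟩, 0, ⟨le_rfl, hh.trans (hR s₁ ⟨le_rfl, hs⟩)⟩, 0, by simpa using hL, ?_⟩
    rw [hc1, hc2]; simp
  · have hne : c₁ + c₂ ≠ 0 := hpos.ne'
    have hτ : (c₁ * s₁ + c₂ * s₂) / (c₁ + c₂) ∈ Icc s₁ s₂ := by
      constructor
      · rw [le_div_iff₀ hpos]; nlinarith
      · rw [div_le_iff₀ hpos]; nlinarith
    refine ⟨(c₁ * s₁ + c₂ * s₂) / (c₁ + c₂), hτ, c₁ + c₂, ⟨hpos.le, h3.trans (hR _ hτ)⟩, 0,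
      by simpa using hL, ?_⟩
    match_scalars <;> field_simp

/-- **[C-5] Inner containment**, in the shape of the S0328 statement: the projection of the flat
triangle lies in the projection of the piece. -/
theorem inner_subset_piece {F : Type*} [NormedAddCommGroup F] [InnerProductSpace ℝ F]
    (e a b p₀ : F) (L : ℝ) (hL : 0 ≤ L) (R : ℝ → ℝ) (w : ℝ → F) (s₁ s₂ : ℝ) (hs : s₁ ≤ s₂)
    (n : F) (h : ℝ) (hh : 0 ≤ h) (hR : ∀ τ ∈ Icc s₁ s₂, h ≤ R τ) :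
    convexHull ℝ {(fun z : F => z - (inner ℝ z n / ‖n‖ ^ 2) • n) p₀,
        (fun z : F => z - (inner ℝ z n / ‖n‖ ^ 2) • n) (p₀ + h • (a + s₁ • b)),
        (fun z : F => z - (inner ℝ z n / ‖n‖ ^ 2) • n) (p₀ + h • (a + s₂ • b))} ⊆
      (fun z : F => z - (inner ℝ z n / ‖n‖ ^ 2) • n) ''
        {x | ∃ τ ∈ Icc s₁ s₂, ∃ ρ ∈ Icc 0 (R τ), ∃ s : ℝ, |s| ≤ L ∧
          x = p₀ + ρ • (a + τ • b) + s • (e + w τ)} := by
  have himg := (projL n).image_convexHull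
    ({p₀, p₀ + h • (a + s₁ • b), p₀ + h • (a + s₂ • b)} : Set F)
  rw [image_insert_eq, image_insert_eq, image_singleton] at himg
  have hfun : (fun z : F => z - (inner ℝ z n / ‖n‖ ^ 2) • n) = ⇑(projL n) := rfl
  rw [hfun, ← himg]
  exact image_mono (flat_subset_piece e a b p₀ L hL R w s₁ s₂ hs h hh hR)

/-- Every point of `[t 0, t (last N)]` lies in some cell of a partition (`0 < N`). -/
theorem partition_mem (N : ℕ) (t : Fin (N + 1) → ℝ) (hN : 0 < N) (τ : ℝ)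
    (hτ : τ ∈ Icc (t 0) (t (Fin.last N))) : ∃ i : Fin N, τ ∈ Icc (t i.castSucc) (t i.succ) := by
  induction N with
  | zero => exact absurd hN (lt_irrefl 0)
  | succ n ih =>
    by_cases hlast : t (Fin.last n).castSucc ≤ τ
    · exact ⟨Fin.last n, hlast, by simpa using hτ.2⟩
    · rw [not_le] at hlast
      rcases Nat.eq_zero_or_pos n with hn | hn
      · subst hn
        exfalso
        have : (Fin.last 0).castSucc = (0 : Fin 2) := rfl
        rw [this] at hlast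
        exact absurd hτ.1 (not_le.2 hlast)
      · obtain ⟨i, hi⟩ := ih (fun j => t j.castSucc) hn
          ⟨by simpa using hτ.1, by simpa using hlast.le⟩
        exact ⟨i.castSucc, by simpa using hi⟩

/-- Cells of a monotone partition of `[α, β]` lie in `[α, β]`. -/
theorem cell_subset (N : ℕ) (t : Fin (N + 1) → ℝ) (ht : Monotone t) (α β : ℝ) (h0 : t 0 = α)
    (hN : t (Fin.last N) = β) (i : Fin N) : Icc (t i.castSucc) (t i.succ) ⊆ Icc α β := by
  apply Icc_subset_Icc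
  · rw [← h0]; exact ht (Fin.zero_le _)
  · rw [← hN]; exact ht (Fin.le_last _)

/-- **Glue**: the sweep is the union of its pieces over the cells of a partition. -/
theorem sweep_eq_iUnion_pieces {F : Type*} [AddCommGroup F] [Module ℝ F] (e a b p₀ : F) (L : ℝ)
    (α β : ℝ) (hαβ : α < β) (R : ℝ → ℝ) (w : ℝ → F) (N : ℕ) (t : Fin (N + 1) → ℝ)
    (ht : StrictMono t) (h0 : t 0 = α) (hN : t (Fin.last N) = β) :
    {x : F | ∃ τ ∈ Icc α β, ∃ ρ ∈ Icc 0 (R τ), ∃ s : ℝ, |s| ≤ L ∧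
        x = p₀ + ρ • (a + τ • b) + s • (e + w τ)} =
      ⋃ i : Fin N, {x : F | ∃ τ ∈ Icc (t i.castSucc) (t i.succ), ∃ ρ ∈ Icc 0 (R τ), ∃ s : ℝ,
        |s| ≤ L ∧ x = p₀ + ρ • (a + τ • b) + s • (e + w τ)} := by
  have hNpos : 0 < N := by
    rcases Nat.eq_zero_or_pos N with h | h
    · subst h
      exfalso
      have : t (Fin.last 0) = t 0 := rfl
      rw [hN, h0] at this
      exact absurd this hαβ.ne'
    · exact h
  ext x
  simp only [mem_setOf_eq, mem_iUnion]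
  constructor
  · rintro ⟨τ, hτ, rest⟩
    obtain ⟨i, hi⟩ := partition_mem N t hNpos τ (by rw [h0, hN]; exact hτ)
    exact ⟨i, τ, hi, rest⟩
  · rintro ⟨i, τ, hτ, rest⟩
    exact ⟨τ, cell_subset N t ht.monotone α β h0 hN i hτ, rest⟩

end Crest.Agent.Helper53.Sweep
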