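import Mathlib

/-!
# Radial sweep: the piece lemma (measure-free)

For the radial sweep of S0328 we show that the piece of the sweep over a parameter sector
`[s₁, s₂]` lies in the cylinder with axis `e + w c` over an explicit triangle in `e^⊥`.
-/

set_option autoImplicit false
open MeasureTheory Set

namespace Crest.Agent.Helper53.Sweep

variable {E : Type*} [NormedAddCommGroup E] [NormedSpace ℝ E] [CompleteSpace E]

/-- FTC decomposition: `w τ - w c` is a combination of the two extreme ray directions of the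
sector with small coefficients. -/
theorem w_sub_eq (a b : E) (α β : ℝ) (w : ℝ → E) (lam : ℝ → ℝ)
    (hlam : ContinuousOn lam (Icc α β))
    (hw' : ∀ t ∈ Icc α β, HasDerivWithinAt w (lam t • (a + t • b)) (Icc α β) t)
    (Λ : ℝ) (hΛ : ∀ t ∈ Icc α β, |lam t| ≤ Λ)
    (s₁ s₂ : ℝ) (hs : s₁ < s₂) (h1 : α ≤ s₁) (h2 : s₂ ≤ β)
    (c τ : ℝ) (hc : c ∈ Icc s₁ s₂) (hτ : τ ∈ Icc s₁ s₂) :
    ∃ A₁ A₂ : ℝ, |A₁| ≤ Λ * (s₂ - s₁) ∧ |A₂| ≤ Λ * (s₂ - s₁) ∧
      w τ - w c = A₁ • (a + s₁ • b) + A₂ • (a + s₂ • b) := by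
  have hcont : ContinuousOn w (Icc α β) := fun t ht => (hw' t ht).continuousWithinAt
  have hsub' : uIcc c τ ⊆ Icc s₁ s₂ := uIcc_subset_Icc hc hτ
  have hsub : uIcc c τ ⊆ Icc α β := hsub'.trans (Icc_subset_Icc h1 h2)
  have hΔ : 0 < s₂ - s₁ := sub_pos.2 hs
  have hΛ0 : 0 ≤ Λ := (abs_nonneg _).trans (hΛ s₁ ⟨h1, hs.le.trans h2⟩)
  have hderiv : ∀ x ∈ Ioo (min c τ) (max c τ),
      HasDerivWithinAt w (lam x • (a + x • b)) (Ioi x) x := by
    intro x hx
    have hxI : x ∈ Ioo α β := by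
      constructor
      · have : s₁ ≤ min c τ := le_min hc.1 hτ.1
        linarith [hx.1]
      · have : max c τ ≤ s₂ := max_le hc.2 hτ.2
        linarith [hx.2]
    exact ((hw' x (Ioo_subset_Icc_self hxI)).hasDerivAt
      (Icc_mem_nhds hxI.1 hxI.2)).hasDerivWithinAt
  have hcontd : ContinuousOn (fun x : ℝ => lam x • (a + x • b)) (Icc α β) := by
    apply ContinuousOn.smul hlam
    exact (continuous_const.add (continuous_id.smul continuous_const)).continuousOn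
  have hint : IntervalIntegrable (fun x : ℝ => lam x • (a + x • b)) volume c τ :=
    (hcontd.mono hsub).intervalIntegrable
  have hFTC := intervalIntegral.integral_eq_sub_of_hasDeriv_right (hcont.mono hsub) hderiv hint
  have key : ∀ x : ℝ, lam x • (a + x • b) =
      (lam x * ((s₂ - x) / (s₂ - s₁))) • (a + s₁ • b) +
        (lam x * ((x - s₁) / (s₂ - s₁))) • (a + s₂ • b) := by
    intro x
    have hne : s₂ - s₁ ≠ 0 := hΔ.ne'
    match_scalars <;> field_simp <;> ring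
  have hc1 : ContinuousOn (fun x : ℝ => lam x * ((s₂ - x) / (s₂ - s₁))) (Icc α β) :=
    hlam.mul ((continuous_const.sub continuous_id).div_const _).continuousOn
  have hc2 : ContinuousOn (fun x : ℝ => lam x * ((x - s₁) / (s₂ - s₁))) (Icc α β) :=
    hlam.mul ((continuous_id.sub continuous_const).div_const _).continuousOn
  have hi1 : IntervalIntegrable (fun x : ℝ => lam x * ((s₂ - x) / (s₂ - s₁))) volume c τ :=
    (hc1.mono hsub).intervalIntegrable
  have hi2 : IntervalIntegrable (fun x : ℝ => lam x * ((x - s₁) / (s₂ - s₁))) volume c τ :=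
    (hc2.mono hsub).intervalIntegrable
  have hcτ : |τ - c| ≤ s₂ - s₁ := by
    rw [abs_le]; constructor <;> linarith [hc.1, hc.2, hτ.1, hτ.2]
  have hmemI : ∀ x ∈ Set.uIoc c τ, x ∈ Icc s₁ s₂ := fun x hx => hsub' (uIoc_subset_uIcc hx)
  refine ⟨∫ x in c..τ, lam x * ((s₂ - x) / (s₂ - s₁)),
    ∫ x in c..τ, lam x * ((x - s₁) / (s₂ - s₁)), ?_, ?_, ?_⟩
  · have hb : ‖∫ x in c..τ, lam x * ((s₂ - x) / (s₂ - s₁))‖ ≤ Λ * |τ - c| := by
      apply intervalIntegral.norm_integral_le_of_norm_le_const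
      intro x hx
      have hx' := hmemI x hx
      have hxl := hΛ x (Icc_subset_Icc h1 h2 hx')
      have h01 : 0 ≤ (s₂ - x) / (s₂ - s₁) := div_nonneg (by linarith [hx'.2]) hΔ.le
      have h02 : (s₂ - x) / (s₂ - s₁) ≤ 1 := by
        rw [div_le_one hΔ]; linarith [hx'.1]
      rw [Real.norm_eq_abs, abs_mul, abs_of_nonneg h01]
      calc |lam x| * ((s₂ - x) / (s₂ - s₁)) ≤ Λ * 1 :=
            mul_le_mul hxl h02 h01 hΛ0
        _ = Λ := mul_one _
    rw [Real.norm_eq_abs] at hb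
    exact hb.trans (mul_le_mul_of_nonneg_left hcτ hΛ0)
  · have hb : ‖∫ x in c..τ, lam x * ((x - s₁) / (s₂ - s₁))‖ ≤ Λ * |τ - c| := by
      apply intervalIntegral.norm_integral_le_of_norm_le_const
      intro x hx
      have hx' := hmemI x hx
      have hxl := hΛ x (Icc_subset_Icc h1 h2 hx')
      have h01 : 0 ≤ (x - s₁) / (s₂ - s₁) := div_nonneg (by linarith [hx'.1]) hΔ.le
      have h02 : (x - s₁) / (s₂ - s₁) ≤ 1 := by
        rw [div_le_one hΔ]; linarith [hx'.2]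
      rw [Real.norm_eq_abs, abs_mul, abs_of_nonneg h01]
      calc |lam x| * ((x - s₁) / (s₂ - s₁)) ≤ Λ * 1 :=
            mul_le_mul hxl h02 h01 hΛ0
        _ = Λ := mul_one _
    rw [Real.norm_eq_abs] at hb
    exact hb.trans (mul_le_mul_of_nonneg_left hcτ hΛ0)
  · rw [← hFTC]
    simp_rw [key]
    have hj1 : IntervalIntegrable
        (fun x : ℝ => (lam x * ((s₂ - x) / (s₂ - s₁))) • (a + s₁ • b)) volume c τ :=
      ((hc1.smul continuousOn_const).mono hsub).intervalIntegrable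
    have hj2 : IntervalIntegrable
        (fun x : ℝ => (lam x * ((x - s₁) / (s₂ - s₁))) • (a + s₂ • b)) volume c τ :=
      ((hc2.smul continuousOn_const).mono hsub).intervalIntegrable
    rw [intervalIntegral.integral_add hj1 hj2,
      intervalIntegral.integral_smul_const, intervalIntegral.integral_smul_const]

/-- Coordinates of a point of the piece in the frame of the sector. -/
theorem piece_coords (e a b p₀ : E) (L : ℝ) (α β : ℝ) (R : ℝ → ℝ) (w : ℝ → E) (lam : ℝ → ℝ)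
    (hlam : ContinuousOn lam (Icc α β))
    (hw' : ∀ t ∈ Icc α β, HasDerivWithinAt w (lam t • (a + t • b)) (Icc α β) t)
    (Λ : ℝ) (hΛ : ∀ t ∈ Icc α β, |lam t| ≤ Λ)
    (s₁ s₂ : ℝ) (hs : s₁ < s₂) (h1 : α ≤ s₁) (h2 : s₂ ≤ β)
    (c : ℝ) (hc : c ∈ Icc s₁ s₂)
    (Rbar : ℝ) (hRbar : ∀ τ ∈ Icc s₁ s₂, R τ ≤ Rbar)
    (τ : ℝ) (hτ : τ ∈ Icc s₁ s₂) (ρ : ℝ) (hρ : ρ ∈ Icc 0 (R τ)) (s : ℝ) (hsL : |s| ≤ L) :
    ∃ c₁ c₂ : ℝ, 0 ≤ c₁ ∧ 0 ≤ c₂ ∧ c₁ + c₂ ≤ Rbar + 4 * (L * Λ * (s₂ - s₁)) ∧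
      p₀ + ρ • (a + τ • b) + s • (e + w τ) =
        (p₀ - (L * Λ * (s₂ - s₁)) • ((a + s₁ • b) + (a + s₂ • b))) + c₁ • (a + s₁ • b)
          + c₂ • (a + s₂ • b) + s • (e + w c) := by
  obtain ⟨A₁, A₂, hA₁, hA₂, hw⟩ := w_sub_eq a b α β w lam hlam hw' Λ hΛ s₁ s₂ hs h1 h2 c τ hc hτ
  have hΔ : 0 < s₂ - s₁ := sub_pos.2 hs
  have hne : s₂ - s₁ ≠ 0 := hΔ.ne'
  have hΛ0 : 0 ≤ Λ := (abs_nonneg _).trans (hΛ s₁ ⟨h1, hs.le.trans h2⟩)
  have hL0 : 0 ≤ L := (abs_nonneg _).trans hsL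
  have hsA : ∀ A : ℝ, |A| ≤ Λ * (s₂ - s₁) → |s * A| ≤ L * Λ * (s₂ - s₁) := by
    intro A hA
    rw [abs_mul, mul_assoc]
    exact mul_le_mul hsL hA (abs_nonneg _) hL0
  have hsA₁ := abs_le.1 (hsA A₁ hA₁)
  have hsA₂ := abs_le.1 (hsA A₂ hA₂)
  have hρ1 : 0 ≤ ρ * ((s₂ - τ) / (s₂ - s₁)) :=
    mul_nonneg hρ.1 (div_nonneg (by linarith [hτ.2]) hΔ.le)
  have hρ2 : 0 ≤ ρ * ((τ - s₁) / (s₂ - s₁)) :=
    mul_nonneg hρ.1 (div_nonneg (by linarith [hτ.1]) hΔ.le)
  have hsum : ρ * ((s₂ - τ) / (s₂ - s₁)) + ρ * ((τ - s₁) / (s₂ - s₁)) = ρ := by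
    field_simp; ring
  have hρR : ρ ≤ Rbar := hρ.2.trans (hRbar τ hτ)
  have hwτ : w τ = w c + (A₁ • (a + s₁ • b) + A₂ • (a + s₂ • b)) := by
    rw [← hw]; abel
  refine ⟨ρ * ((s₂ - τ) / (s₂ - s₁)) + s * A₁ + L * Λ * (s₂ - s₁),
    ρ * ((τ - s₁) / (s₂ - s₁)) + s * A₂ + L * Λ * (s₂ - s₁), by linarith, by linarith,
    by linarith, ?_⟩
  rw [hwτ]
  match_scalars <;> field_simp <;> ring

/-- A point with nonnegative coordinates of sum at most `r` lies in the triangle. -/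
theorem mem_tri {F : Type*} [AddCommGroup F] [Module ℝ F] (P v₁ v₂ : F) (r c₁ c₂ : ℝ)
    (hr : 0 < r) (h1 : 0 ≤ c₁) (h2 : 0 ≤ c₂) (h : c₁ + c₂ ≤ r) :
    P + c₁ • v₁ + c₂ • v₂ ∈ convexHull ℝ {P, P + r • v₁, P + r • v₂} := by
  have hC := convex_convexHull ℝ ({P, P + r • v₁, P + r • v₂} : Set F)
  have hP : P ∈ convexHull ℝ ({P, P + r • v₁, P + r • v₂} : Set F) :=
    subset_convexHull ℝ _ (by simp)
  have hQ : P + r • v₁ ∈ convexHull ℝ ({P, P + r • v₁, P + r • v₂} : Set F) :=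
    subset_convexHull ℝ _ (by simp)
  have hR : P + r • v₂ ∈ convexHull ℝ ({P, P + r • v₁, P + r • v₂} : Set F) :=
    subset_convexHull ℝ _ (by simp)
  have hne : r ≠ 0 := hr.ne'
  have hsum := hC.sum_mem (t := Finset.univ) (w := ![1 - (c₁ + c₂) / r, c₁ / r, c₂ / r])
    (z := ![P, P + r • v₁, P + r • v₂]) ?_ ?_ ?_
  · have e : ∑ i : Fin 3, (![1 - (c₁ + c₂) / r, c₁ / r, c₂ / r] : Fin 3 → ℝ) i •
        (![P, P + r • v₁, P + r • v₂] : Fin 3 → F) i = P + c₁ • v₁ + c₂ • v₂ := by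
      simp only [Fin.sum_univ_three, Matrix.cons_val_zero, Matrix.cons_val_one,
        Matrix.cons_val_two, Matrix.head_cons, Matrix.tail_cons]
      match_scalars <;> field_simp <;> ring
    rw [← e]; exact hsum
  · intro i _
    fin_cases i
    · simp only [Fin.zero_eta, Matrix.cons_val_zero, sub_nonneg]
      rw [div_le_one hr]; exact h
    · simpa using div_nonneg h1 hr.le
    · simpa using div_nonneg h2 hr.le
  · simp only [Fin.sum_univ_three, Matrix.cons_val_zero, Matrix.cons_val_one,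
      Matrix.cons_val_two, Matrix.head_cons, Matrix.tail_cons]
    field_simp; ring
  · intro i _
    fin_cases i
    · simpa using hP
    · simpa using hQ
    · simpa using hR

/-- Every point of the triangle has nonnegative coordinates of sum at most `r`. -/
theorem tri_subset {F : Type*} [AddCommGroup F] [Module ℝ F] (P v₁ v₂ : F) (r : ℝ) (hr : 0 ≤ r) :
    convexHull ℝ {P, P + r • v₁, P + r • v₂} ⊆
      {x | ∃ c₁ c₂ : ℝ, 0 ≤ c₁ ∧ 0 ≤ c₂ ∧ c₁ + c₂ ≤ r ∧ x = P + c₁ • v₁ + c₂ • v₂} := by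
  apply convexHull_min
  · intro x hx
    simp only [mem_insert_iff, mem_singleton_iff] at hx
    rcases hx with rfl | rfl | rfl
    · exact ⟨0, 0, le_rfl, le_rfl, by simpa using hr, by simp⟩
    · exact ⟨r, 0, hr, le_rfl, by simp, by simp⟩
    · exact ⟨0, r, le_rfl, hr, by simp, by simp⟩
  · rintro x ⟨c₁, c₂, h1, h2, h3, rfl⟩ y ⟨d₁, d₂, k1, k2, k3, rfl⟩ s t hs ht hst
    refine ⟨s * c₁ + t * d₁, s * c₂ + t * d₂, by positivity, by positivity, ?_, ?_⟩
    · calc s * c₁ + t * d₁ + (s * c₂ + t * d₂) = s * (c₁ + c₂) + t * (d₁ + d₂) := by ring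
        _ ≤ s * r + t * r := by gcongr
        _ = r := by rw [← add_mul, hst, one_mul]
    · have hs' : s = 1 - t := by linarith
      subst hs'
      match_scalars
      · ring
      · ring
      · ring

end Crest.Agent.Helper53.Sweep
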